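import Mathlib
import Vale.Agent.Lib.P248.helper37.Q2Defs

/-!
# P248 pool job J9: the part of the polar with `k` negative coordinates is at least as large
as the tree predicts

`polK_lower_of` is the induction on the dimension; the facts it uses about sections, the
dimension zero, the counting identity and the pieces are hypotheses, so that it can be combined
with any copies of those leaves.
-/

open MeasureTheory Set

namespace Vale.Agent.Lib.P248.H58Q

open Vale.Agent.Lib.P248.H37 Vale.Agent.Lib.P248.H37Q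

/-- `ENNReal.ofReal` of a finite sum is at most the sum of the `ENNReal.ofReal`. -/
theorem ofReal_sum_le_sum {ι : Type*} (s : Finset ι) (f : ι → ℝ) :
    ENNReal.ofReal (∑ i ∈ s, f i) ≤ ∑ i ∈ s, ENNReal.ofReal (f i) := by
  classical
  induction s using Finset.induction_on with
  | empty => simp
  | insert a s ha ih =>
    rw [Finset.sum_insert ha, Finset.sum_insert ha]
    exact le_trans ENNReal.ofReal_add_le (add_le_add le_rfl ih)

theorem tree_zero_Om_zero (A : Set (Fin 0 → ℝ)) (z : Fin 0 → ℝ) : (tree 0 A z).Om 0 = 1 := rfl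

theorem tree_zero_Om_succ (A : Set (Fin 0 → ℝ)) (z : Fin 0 → ℝ) (k : ℕ) :
    (tree 0 A z).Om (k + 1) = 0 := rfl

theorem tree_succ_Om_zero (n : ℕ) (A : Set (Fin (n + 1) → ℝ)) (z : Fin (n + 1) → ℝ) :
    (tree (n + 1) A z).Om 0 = ((n + 1).factorial : ℝ) * vT A z * ∏ i, z i := rfl

theorem tree_succ_Om_succ (n : ℕ) (A : Set (Fin (n + 1) → ℝ)) (z : Fin (n + 1) → ℝ) (k : ℕ) :
    (tree (n + 1) A z).Om (k + 1)
      = ∑ i, (tree n (sec A i) (fun j => z (i.succAbove j))).Om k := rfl

theorem vT_eq {m : ℕ} (A : Set (Fin m → ℝ)) (z : Fin m → ℝ) :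
    vT A z = (volume (posZ A z)).toReal := rfl

/-- J9 with its leaves as hypotheses. -/
theorem polK_lower_of
    (adm_sec : ∀ {n : ℕ} {A : Set (Fin (n + 1) → ℝ)} {z : Fin (n + 1) → ℝ}, Adm A z →
      ∀ i : Fin (n + 1), Adm (sec A i) (fun k => z (i.succAbove k)))
    (vT_dim_zero : ∀ (A : Set (Fin 0 → ℝ)) (z : Fin 0 → ℝ), vT A z = 1)
    (polK_zero : ∀ {m : ℕ} (A : Set (Fin m → ℝ)) (z : Fin m → ℝ), polK A z 0 = posZ A z)
    (polK_count : ∀ {m : ℕ} (A : Set (Fin m → ℝ)) (z : Fin m → ℝ) (k : ℕ),
      (k : ENNReal) * volume (polK A z k) = ∑ i, volume (polK A z k ∩ {y | y i < 0}))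
    (polK_piece : ∀ {n : ℕ} {A : Set (Fin (n + 1) → ℝ)} {z : Fin (n + 1) → ℝ}, Adm A z →
      ∀ (i : Fin (n + 1)) (k : ℕ),
        ENNReal.ofReal (1 / (((n : ℝ) + 1) * z i)) *
            volume (polK (sec A i) (fun j => z (i.succAbove j)) k) ≤
          volume (polK A z (k + 1) ∩ {y | y i < 0})) :
    ∀ (m : ℕ) (A : Set (Fin m → ℝ)) (z : Fin m → ℝ), Adm A z → ∀ k : ℕ,
      ENNReal.ofReal ((tree m A z).Om k / ((k.factorial : ℝ) * (m.factorial : ℝ) * ∏ i, z i)) ≤
        volume (polK A z k) := by
  intro m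
  induction m with
  | zero =>
    intro A z h k
    cases k with
    | zero =>
      rw [tree_zero_Om_zero, polK_zero]
      have e : (1 : ℝ) / (((Nat.factorial 0 : ℕ) : ℝ) * ((Nat.factorial 0 : ℕ) : ℝ) * ∏ i, z i)
          = vT A z := by
        rw [vT_dim_zero]
        simp
      rw [e, vT_eq]
      exact ENNReal.ofReal_toReal_le
    | succ k =>
      rw [tree_zero_Om_succ]
      simp
  | succ n ih =>
    intro A z h k
    have hP : 0 < ∏ i, z i := Finset.prod_pos (fun i _ => h.pos i)
    have hfn : (0 : ℝ) < ((n + 1).factorial : ℝ) := by positivity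
    cases k with
    | zero =>
      rw [tree_succ_Om_zero, polK_zero]
      have e : (((n + 1).factorial : ℝ) * vT A z * ∏ i, z i) /
          (((Nat.factorial 0 : ℕ) : ℝ) * ((n + 1).factorial : ℝ) * ∏ i, z i) = vT A z := by
        rw [Nat.factorial_zero, Nat.cast_one, one_mul]
        field_simp
      rw [e, vT_eq]
      exact ENNReal.ofReal_toReal_le
    | succ k =>
      rw [tree_succ_Om_succ]
      have hprod : ∀ i, z i * ∏ j, z (i.succAbove j) = ∏ i, z i :=
        fun i => (Fin.prod_univ_succAbove z i).symm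
      have hfk : (0 : ℝ) < (k.factorial : ℝ) := by positivity
      have hfn' : (0 : ℝ) < (n.factorial : ℝ) := by positivity
      have key1 : ∀ i : Fin (n + 1),
          ENNReal.ofReal ((tree n (sec A i) (fun j => z (i.succAbove j))).Om k /
            ((k.factorial : ℝ) * ((n + 1).factorial : ℝ) * ∏ i, z i)) ≤
          volume (polK A z (k + 1) ∩ {y | y i < 0}) := by
        intro i
        refine le_trans ?_ (polK_piece h i k)
        have hi := ih (sec A i) (fun j => z (i.succAbove j)) (adm_sec h i) k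
        have hz : 0 < z i := h.pos i
        have hQ : 0 < ∏ j, z (i.succAbove j) := Finset.prod_pos (fun j _ => h.pos _)
        have hnn : (0 : ℝ) ≤ 1 / (((n : ℝ) + 1) * z i) := by positivity
        have e : (tree n (sec A i) (fun j => z (i.succAbove j))).Om k /
            ((k.factorial : ℝ) * ((n + 1).factorial : ℝ) * ∏ i, z i)
            = 1 / (((n : ℝ) + 1) * z i) *
              ((tree n (sec A i) (fun j => z (i.succAbove j))).Om k /
                ((k.factorial : ℝ) * (n.factorial : ℝ) * ∏ j, z (i.succAbove j))) := by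
          rw [← hprod i, Nat.factorial_succ]
          push_cast
          field_simp
        rw [e, ENNReal.ofReal_mul hnn]
        exact mul_le_mul' le_rfl hi
      have hsum : ENNReal.ofReal ((∑ i, (tree n (sec A i) (fun j => z (i.succAbove j))).Om k) /
            ((k.factorial : ℝ) * ((n + 1).factorial : ℝ) * ∏ i, z i)) ≤
          ∑ i, volume (polK A z (k + 1) ∩ {y | y i < 0}) := by
        rw [Finset.sum_div]
        exact le_trans (ofReal_sum_le_sum _ _) (Finset.sum_le_sum fun i _ => key1 i)
      have e : (∑ i, (tree n (sec A i) (fun j => z (i.succAbove j))).Om k) /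
            ((k.factorial : ℝ) * ((n + 1).factorial : ℝ) * ∏ i, z i)
          = ((k + 1 : ℕ) : ℝ) * ((∑ i, (tree n (sec A i) (fun j => z (i.succAbove j))).Om k) /
            (((k + 1).factorial : ℝ) * ((n + 1).factorial : ℝ) * ∏ i, z i)) := by
        rw [Nat.factorial_succ k]
        push_cast
        field_simp
      rw [e, ENNReal.ofReal_mul (Nat.cast_nonneg _), ENNReal.ofReal_natCast,
        ← polK_count A z (k + 1)] at hsum
      exact (ENNReal.mul_le_mul_iff_right (by simp) (by simp)).mp hsum

end Vale.Agent.Lib.P248.H58Q
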